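import Vale.Agent.P038.H224.Pair

/-!
# P038 (H224): the shifted pair is not more expensive; the conjecture
-/

namespace Vale.Agent.P038.H224

open Finset Vale.Agent.P038.H139 Vale.Agent.P038.H71

universe u

variable {V : Type u} [Fintype V] [DecidableEq V]

theorem self_mem_Mt {D : OGraph V} {B C : V → Finset V} (h : Feas D B C) (a : V) :
    a ∈ Mt D B a := mem_Mt.2 fun _ hs => h.hB _ _ hs

/-- The closed out-neighbourhoods of the shifted pair form a feasible pair. -/
theorem Feas.shift {D : OGraph V} {B C : V → Finset V} (h : Feas D B C) :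
    Feas D (fun a => cl D (Mt D B a)) (fun b => cl D (Mt D C b)) := by
  refine ⟨fun a b hab => mem_cl'.2 ⟨a, self_mem_Mt h a, hab⟩,
    fun a b hab => mem_cl'.2 ⟨a, self_mem_Mt h.symm a, hab⟩, fun a b h1 h2 => ?_⟩
  obtain ⟨x, hx, hxb⟩ := mem_cl'.1 h1
  obtain ⟨y, hy, hya⟩ := mem_cl'.1 h2
  have h3 : x ∈ B y := mem_Mt.1 hx y hya
  have h4 : y ∈ C x := mem_Mt.1 hy x hxb
  have h5 : y = x := h.comp y x h3 h4
  subst h5
  have h6 : a = y := h.comp a y (mem_Mt.1 hx a (Rl.refl D a)) (h.hC _ _ hya)
  have h7 : y = b := h.comp y b (h.hB _ _ hxb) (mem_Mt.1 hy b (Rl.refl D b))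
  exact h6.trans h7

/-- Bookkeeping: the cost of the second shifted family. -/
theorem Feas.cost_shift {D : OGraph V} {B C : V → Finset V} (h : Feas D B C) :
    ∑ b, bd D (Mt D C b) + ∑ a, (cl D (Mt D (Up C) a)).card ≤ ∑ a, (cl D (Up C a)).card := by
  classical
  have h1 : ∀ a, (cl D (Up C a) \ cl D (Mt D (Up C) a)).card +
      (cl D (Mt D (Up C) a)).card = (cl D (Up C a)).card := fun a =>
    Finset.card_sdiff_add_card_eq_card (cl_mono (Mt_sub (B := Up C) (Rl.refl D a)))
  have h2 : ∑ b, bd D (Mt D C b) ≤ ∑ a, (cl D (Up C a) \ cl D (Mt D (Up C) a)).card := by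
    have e1 : ∑ b, bd D (Mt D C b) = ∑ b, ∑ a, if a ∈ cl D (Mt D C b) \ Mt D C b then 1 else 0 := by
      refine Finset.sum_congr rfl fun b _ => ?_
      rw [bd, Finset.card_eq_sum_ones, Finset.sum_ite_mem, Finset.univ_inter]
    have e2 : ∑ a, (cl D (Up C a) \ cl D (Mt D (Up C) a)).card =
        ∑ a, ∑ b, if b ∈ cl D (Up C a) \ cl D (Mt D (Up C) a) then 1 else 0 := by
      refine Finset.sum_congr rfl fun b _ => ?_
      rw [Finset.card_eq_sum_ones, Finset.sum_ite_mem, Finset.univ_inter]
    rw [e1, e2, Finset.sum_comm]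
    refine Finset.sum_le_sum fun a _ => Finset.sum_le_sum fun b _ => ?_
    by_cases hab : a ∈ cl D (Mt D C b) \ Mt D C b
    · rw [if_pos hab, if_pos]
      obtain ⟨ha1, ha2⟩ := Finset.mem_sdiff.1 hab
      refine Finset.mem_sdiff.2 ⟨?_, fun hb => ?_⟩
      · rw [mem_Mt] at ha2
        push Not at ha2
        obtain ⟨t, htb, hta⟩ := ha2
        exact mem_cl'.2 ⟨t, mem_Up.2 fun h' => absurd h' hta, htb⟩
      · obtain ⟨x, hx, hxb⟩ := mem_cl'.1 hb
        obtain ⟨y, hy, hya⟩ := mem_cl'.1 ha1
        have h3 : y ∈ C x := mem_Mt.1 hy x hxb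
        have h4 : y = x := mem_Up.1 (mem_Mt.1 hx y hya) h3
        subst h4
        have h5 : a = y := mem_Up.1 (mem_Mt.1 hx a (Rl.refl D a)) (h.hC _ _ hya)
        subst h5
        exact ha2 hy
    · rw [if_neg hab]
      exact Nat.zero_le _
  have h3 : ∑ a, (cl D (Up C a) \ cl D (Mt D (Up C) a)).card +
      ∑ a, (cl D (Mt D (Up C) a)).card = ∑ a, (cl D (Up C a)).card := by
    rw [← Finset.sum_add_distrib]
    exact Finset.sum_congr rfl fun a _ => h1 a
  omega

/-- Bookkeeping: the cost of the second family. -/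
theorem Feas.cost_col {D : OGraph V} {B C : V → Finset V} (h : Feas D B C) :
    ∑ a, (Up C a).card ≤ ∑ b, bd D (C b) + ∑ a, (Mt D (Up C) a).card := by
  classical
  have h1 : ∀ a, (Up C a \ Mt D (Up C) a).card + (Mt D (Up C) a).card = (Up C a).card :=
    fun a => Finset.card_sdiff_add_card_eq_card (Mt_sub (B := Up C) (Rl.refl D a))
  have h2 : ∑ a, (Up C a \ Mt D (Up C) a).card ≤ ∑ b, bd D (C b) := by
    have e1 : ∑ b, bd D (C b) = ∑ b, ∑ a, if a ∈ cl D (C b) \ C b then 1 else 0 := by
      refine Finset.sum_congr rfl fun b _ => ?_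
      rw [bd, Finset.card_eq_sum_ones, Finset.sum_ite_mem, Finset.univ_inter]
    have e2 : ∑ a, (Up C a \ Mt D (Up C) a).card =
        ∑ a, ∑ b, if b ∈ Up C a \ Mt D (Up C) a then 1 else 0 := by
      refine Finset.sum_congr rfl fun b _ => ?_
      rw [Finset.card_eq_sum_ones, Finset.sum_ite_mem, Finset.univ_inter]
    rw [e1, e2, Finset.sum_comm]
    refine Finset.sum_le_sum fun b _ => Finset.sum_le_sum fun a _ => ?_
    by_cases hab : b ∈ Up C a \ Mt D (Up C) a
    · rw [if_pos hab, if_pos]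
      obtain ⟨hb1, hb2⟩ := Finset.mem_sdiff.1 hab
      rw [mem_Mt] at hb2
      push Not at hb2
      obtain ⟨s, hsa, hs⟩ := hb2
      rw [mem_Up] at hs
      push Not at hs
      refine Finset.mem_sdiff.2 ⟨mem_cl'.2 ⟨s, hs.1, hsa⟩, fun ha => ?_⟩
      have h3 : a = b := mem_Up.1 hb1 ha
      subst h3
      exact hs.2 (h.comp s a (h.hB _ _ hsa) hs.1)
    · rw [if_neg hab]
      exact Nat.zero_le _
  have h3 : ∑ a, (Up C a \ Mt D (Up C) a).card + ∑ a, (Mt D (Up C) a).card =
      ∑ a, (Up C a).card := by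
    rw [← Finset.sum_add_distrib]
    exact Finset.sum_congr rfl fun a _ => h1 a
  omega

/-- The shifted pair is not more expensive than the optimal pair. -/
theorem OptPair.main {D : OGraph V} {B C : V → Finset V} (h : OptPair D B C) :
    cost D (Mt D B) (Mt D C) ≤ cost D B C := by
  have h1 := h.gap
  have h2 := h.toFeas.cost_shift
  have h3 := h.toFeas.cost_col
  have h4 : ∑ a, bd D (Up C a) + ∑ a, (Up C a).card = ∑ a, (cl D (Up C a)).card := by
    rw [← Finset.sum_add_distrib]
    exact Finset.sum_congr rfl fun a _ => bd_add D _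
  have h5 : ∑ a, bd D (Mt D (Up C) a) + ∑ a, (Mt D (Up C) a).card =
      ∑ a, (cl D (Mt D (Up C) a)).card := by
    rw [← Finset.sum_add_distrib]
    exact Finset.sum_congr rfl fun a _ => bd_add D _
  unfold cost
  omega

/-- If the boundaries strictly decrease and every vertex has an out-neighbour, we have a
contradiction. -/
theorem no_graph [Nonempty V] (D : OGraph V) (hout : ∀ a, ∃ b, D.arc a b)
    (hG : ∀ X : Finset V, cl D X ≠ X → bd D (cl D X) < bd D X) : False := by
  classical
  obtain ⟨B, C, h⟩ := exists_optPair D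
  have h1 := h.main
  have h2 := h.le _ _ h.toFeas.shift
  have hle : ∀ X : Finset V, bd D (cl D X) ≤ bd D X := by
    intro X
    by_cases hX : cl D X = X
    · rw [hX]
    · exact (hG X hX).le
  have h3 : ∑ a, bd D (cl D (Mt D B a)) ≤ ∑ a, bd D (Mt D B a) :=
    Finset.sum_le_sum fun a _ => hle _
  have h4 : ∑ a, bd D (cl D (Mt D C a)) ≤ ∑ a, bd D (Mt D C a) :=
    Finset.sum_le_sum fun a _ => hle _
  -- all rows are closed
  have hcl : ∀ a, cl D (Mt D B a) = Mt D B a := by
    intro a
    by_contra hne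
    have h5 : ∑ a, bd D (cl D (Mt D B a)) < ∑ a, bd D (Mt D B a) :=
      Finset.sum_lt_sum (fun a _ => hle _) ⟨a, Finset.mem_univ a, hG _ hne⟩
    dsimp only [cost] at h1 h2
    omega
  -- reachable sets
  have hreach : ∀ a b, Relation.ReflTransGen D.arc a b → b ∈ Mt D B a := by
    intro a b hab
    induction hab with
    | refl => exact self_mem_Mt h.toFeas a
    | tail _ hbc ih =>
      rw [← hcl a]
      exact mem_cl'.2 ⟨_, ih, Or.inr hbc⟩
  have hno : ∀ a b, D.arc a b → ¬ Relation.ReflTransGen D.arc b a := by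
    intro a b hab hba
    have h5 : a ∈ B b := mem_Mt.1 (hreach b a hba) b (Rl.refl D b)
    have h6 : b ∈ C a := h.hC a b (Or.inr hab)
    have h7 := h.comp b a h5 h6
    subst h7
    exact D.loopless _ hab
  obtain ⟨a, -, ha⟩ := Finset.exists_min_image (Finset.univ : Finset V)
    (fun a => (Finset.univ.filter fun b => Relation.ReflTransGen D.arc a b).card)
    Finset.univ_nonempty
  obtain ⟨b, hab⟩ := hout a
  have h5 : (Finset.univ.filter fun c => Relation.ReflTransGen D.arc b c) ⊂
      Finset.univ.filter fun c => Relation.ReflTransGen D.arc a c := by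
    refine Finset.ssubset_iff_subset_ne.2 ⟨fun c hc => ?_, fun he => ?_⟩
    · rw [Finset.mem_filter] at hc ⊢
      exact ⟨Finset.mem_univ c, Relation.ReflTransGen.head hab hc.2⟩
    · have h6 : a ∈ Finset.univ.filter fun c => Relation.ReflTransGen D.arc b c := by
        rw [he]
        exact Finset.mem_filter.2 ⟨Finset.mem_univ a, Relation.ReflTransGen.refl⟩
      exact hno a b hab (Finset.mem_filter.1 h6).2
  have h6 := Finset.card_lt_card h5
  have h7 := ha b (Finset.mem_univ b)
  omega

/-- `D` is a counterexample. -/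
def Bad (D : OGraph V) : Prop := ∀ v, (N2 D v).card < (N1 D v).card

omit [Fintype V] [DecidableEq V] in
theorem W_one (S : Finset V) : W (fun _ : V => (1 : ℝ)) S = S.card := by
  simp [W]

theorem bad_iff {D : OGraph V} : Bad D ↔ ∀ v, 0 < Fw 1 D (fun _ => (1 : ℝ)) v := by
  unfold Bad Fw
  refine forall_congr' fun v => ?_
  rw [W_one, W_one, one_mul, sub_pos, Nat.cast_lt]

/-- The boundaries strictly decrease in a counterexample with the fewest arcs. -/
theorem bd_lt {D : OGraph V} (hD : Bad D) (hmin : ∀ D' : OGraph V, Bad D' → numArcs D ≤ numArcs D')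
    (X : Finset V) (hX : cl D X ≠ X) : bd D (cl D X) < bd D X := by
  classical
  set w : V → ℝ := fun _ => 1 with hw
  have hw0 : ∀ v, 0 ≤ w v := fun _ => zero_le_one
  set L := Lx D X with hL
  have hcl : cl D X = X ∪ L := by
    ext z
    rw [mem_cl, Finset.mem_union, hL, Lx, Finset.mem_sdiff, mem_outS]
    tauto
  have hdis : Disjoint X L := Finset.disjoint_sdiff
  have hLne : L.Nonempty := by
    rw [Finset.nonempty_iff_ne_empty]
    intro he
    rw [he, Finset.union_empty] at hcl
    exact hX hcl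
  -- the inequality `d(L) < 0`
  have hd : dd 1 D w X L < 0 := by
    by_contra hcon
    push Not at hcon
    obtain ⟨T, hT, hTmin⟩ := Finset.exists_min_image (L.powerset.filter fun T => T ≠ L)
      (dd 1 D w X) ⟨∅, Finset.mem_filter.2 ⟨Finset.empty_mem_powerset _, hLne.ne_empty.symm⟩⟩
    obtain ⟨hT1, hT2⟩ := Finset.mem_filter.1 hT
    rw [Finset.mem_powerset] at hT1
    have h0 : dd 1 D w X ∅ = 0 := by
      have : cl D (∅ : Finset V) = ∅ := by
        ext z
        rw [mem_cl]
        simp
      unfold dd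
      rw [this]
      simp [W]
    have hall : ∀ S ⊆ L, dd 1 D w X T ≤ dd 1 D w X S := by
      intro S hS
      by_cases hSL : S = L
      · rw [hSL]
        have := hTmin ∅ (Finset.mem_filter.2 ⟨Finset.empty_mem_powerset _, hLne.ne_empty.symm⟩)
        rw [h0] at this
        linarith
      · exact hTmin S (Finset.mem_filter.2 ⟨Finset.mem_powerset.2 hS, hSL⟩)
    have hbad : Bad (del D X (L \ T)) := by
      rw [bad_iff]
      intro v
      have h1 := (bad_iff.1 hD) v
      by_cases hv : v ∈ X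
      · have h2 := del_row_in (lam := 1) (D := D) (w := w) hw0 X T hv
        have h3 := hall (T ∪ (N1 D v ∩ (Lx D X \ T)))
          (Finset.union_subset hT1 (Finset.inter_subset_right.trans Finset.sdiff_subset))
        linarith
      · have h2 := del_row_out (lam := 1) (D := D) (w := w) hw0 X (L \ T) hv
        linarith
    have h2 := hmin _ hbad
    obtain ⟨z, hzL, hzT⟩ : ∃ z ∈ L, z ∉ T := by
      by_contra hc
      push Not at hc
      exact hT2 (Finset.Subset.antisymm hT1 hc)
    have hzL' : z ∈ outS D X \ X := hzL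
    obtain ⟨y, hy, hyz⟩ := mem_outS.1 (Finset.mem_sdiff.1 hzL').1
    have h3 := numArcs_lt_del (D := D) (Z := L \ T) hy (Finset.mem_sdiff.2 ⟨hzL, hzT⟩) hyz
    omega
  have h1 : (cl D L \ X).card < 2 * L.card := by
    have h2 : ((cl D L \ X).card : ℝ) < 2 * (L.card : ℝ) := by
      unfold dd at hd
      rw [W_one, W_one] at hd
      linarith
    exact_mod_cast h2
  have h2 : cl D (cl D X) \ X = cl D L \ X := by
    ext z
    rw [Finset.mem_sdiff, Finset.mem_sdiff, mem_cl', mem_cl', hcl]
    constructor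
    · rintro ⟨⟨y, hy, hyz⟩, hz⟩
      refine ⟨?_, hz⟩
      rcases Finset.mem_union.1 hy with hy | hy
      · refine ⟨z, ?_, Rl.refl D z⟩
        have : z ∈ cl D X := mem_cl'.2 ⟨y, hy, hyz⟩
        rw [hcl] at this
        rcases Finset.mem_union.1 this with h | h
        · exact absurd h hz
        · exact h
      · exact ⟨y, hy, hyz⟩
    · rintro ⟨⟨y, hy, hyz⟩, hz⟩
      exact ⟨⟨y, Finset.mem_union_right _ hy, hyz⟩, hz⟩
  have h3 : X ⊆ cl D (cl D X) := (subset_cl D X).trans (subset_cl D _)
  have h4 := Finset.card_sdiff_add_card_eq_card h3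
  have h5 := bd_add D (cl D X)
  have h6 := bd_add D X
  have h7 : (cl D X).card = X.card + L.card := by
    rw [hcl, Finset.card_union_of_disjoint hdis]
  rw [h2] at h4
  omega

omit [DecidableEq V] in
/-- **Seymour's second neighbourhood conjecture.** -/
theorem seymour [Nonempty V] (D : OGraph V) : ∃ v, (N1 D v).card ≤ (N2 D v).card := by
  classical
  by_contra hcon
  push Not at hcon
  obtain ⟨D0, hD0, hmin⟩ := Set.exists_min_image {D : OGraph V | Bad D} numArcs
    (Set.toFinite _) ⟨D, hcon⟩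
  refine no_graph D0 (fun a => ?_) fun X hX => bd_lt hD0 (fun D' h' => hmin D' h') X hX
  have h1 := hD0 a
  have h2 : (N1 D0 a).Nonempty := Finset.card_pos.1 (by omega)
  obtain ⟨b, hb⟩ := h2
  exact ⟨b, mem_N1.1 hb⟩

end Vale.Agent.P038.H224
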