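import Vale.Agent.P038.H224.Row

/-!
# P038 (H224): the optimal pair and the shifted pair
-/

namespace Vale.Agent.P038.H224

open Finset Vale.Agent.P038.H139

universe u

variable {V : Type u} [Fintype V] [DecidableEq V]

/-- Feasible pairs of families of sets. -/
structure Feas (D : OGraph V) (B C : V → Finset V) : Prop where
  hB : ∀ a b, Rl D a b → b ∈ B a
  hC : ∀ a b, Rl D a b → b ∈ C a
  comp : ∀ a b, b ∈ B a → a ∈ C b → a = b

/-- The cost. -/
noncomputable def cost (D : OGraph V) (B C : V → Finset V) : ℕ :=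
  ∑ a, bd D (B a) + ∑ b, bd D (C b)

/-- Optimal pairs. -/
structure OptPair (D : OGraph V) (B C : V → Finset V) : Prop extends Feas D B C where
  le : ∀ B' C', Feas D B' C' → cost D B C ≤ cost D B' C'

theorem exists_optPair (D : OGraph V) : ∃ B C, OptPair D B C := by
  have h0 : Feas D (fun a => cl D {a}) (fun a => cl D {a}) := by
    refine ⟨fun a b h => mem_cl'.2 ⟨a, Finset.mem_singleton_self a, h⟩,
      fun a b h => mem_cl'.2 ⟨a, Finset.mem_singleton_self a, h⟩, fun a b h1 h2 => ?_⟩
    obtain ⟨y, hy, hyb⟩ := mem_cl'.1 h1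
    obtain ⟨y', hy', hyb'⟩ := mem_cl'.1 h2
    rw [Finset.mem_singleton] at hy hy'
    subst hy hy'
    exact hyb.anti hyb'
  obtain ⟨p, hp, hmin⟩ := Set.exists_min_image
    {p : (V → Finset V) × (V → Finset V) | Feas D p.1 p.2} (fun p => cost D p.1 p.2)
    (Set.toFinite _) ⟨(_, _), h0⟩
  exact ⟨p.1, p.2, hp, fun B' C' h => hmin (B', C') h⟩

/-- Rows of `B` are optimal. -/
theorem OptPair.row {D : OGraph V} {B C : V → Finset V} (h : OptPair D B C) (a : V)
    (Y : Finset V) (hY : B a ⊆ Y) (hY' : ∀ b ∈ Y, a ∈ C b → a = b) :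
    bd D (B a) ≤ bd D Y := by
  have h1 : Feas D (Function.update B a Y) C := by
    refine ⟨fun x b hxb => ?_, h.hC, fun x b h1 h2 => ?_⟩
    · by_cases hx : x = a
      · subst hx
        rw [Function.update_self]
        exact hY (h.hB _ _ hxb)
      · rw [Function.update_of_ne hx]
        exact h.hB _ _ hxb
    · by_cases hx : x = a
      · subst hx
        rw [Function.update_self] at h1
        exact hY' b h1 h2
      · rw [Function.update_of_ne hx] at h1
        exact h.comp _ _ h1 h2
  have h2 := h.le _ _ h1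
  unfold cost at h2
  have h3 : ∑ x, bd D (Function.update B a Y x) + bd D (B a) = ∑ x, bd D (B x) + bd D Y := by
    rw [← Finset.add_sum_erase _ _ (Finset.mem_univ a),
      ← Finset.add_sum_erase _ (fun x => bd D (B x)) (Finset.mem_univ a), Function.update_self]
    have h4 : ∑ x ∈ Finset.univ.erase a, bd D (Function.update B a Y x) =
        ∑ x ∈ Finset.univ.erase a, bd D (B x) := by
      refine Finset.sum_congr rfl fun x hx => ?_
      rw [Function.update_of_ne (Finset.ne_of_mem_erase hx)]
    rw [h4]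
    omega
  omega

theorem Feas.symm {D : OGraph V} {B C : V → Finset V} (h : Feas D B C) : Feas D C B :=
  ⟨h.hC, h.hB, fun a b h1 h2 => (h.comp b a h2 h1).symm⟩

theorem OptPair.symm {D : OGraph V} {B C : V → Finset V} (h : OptPair D B C) :
    OptPair D C B := by
  refine ⟨h.toFeas.symm, fun B' C' h' => ?_⟩
  have := h.le _ _ h'.symm
  unfold cost at this ⊢
  omega

open Classical in
/-- The complement of the columns of `C`. -/
noncomputable def Up (C : V → Finset V) (a : V) : Finset V :=
  Finset.univ.filter fun b => a ∈ C b → a = b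

theorem mem_Up {C : V → Finset V} {a b : V} : b ∈ Up C a ↔ (a ∈ C b → a = b) := by
  classical
  simp [Up]

open Classical in
/-- The intersection of the sets over the closed in-neighbourhood. -/
noncomputable def Mt (D : OGraph V) (B : V → Finset V) (z : V) : Finset V :=
  Finset.univ.filter fun x => ∀ a, Rl D a z → x ∈ B a

theorem mem_Mt {D : OGraph V} {B : V → Finset V} {z x : V} :
    x ∈ Mt D B z ↔ ∀ a, Rl D a z → x ∈ B a := by
  classical
  simp [Mt]

theorem Mt_sub {D : OGraph V} {B : V → Finset V} {z a : V} (h : Rl D a z) :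
    Mt D B z ⊆ B a := fun _ hx => mem_Mt.1 hx a h

theorem Feas.sub_Up {D : OGraph V} {B C : V → Finset V} (h : Feas D B C) (a : V) :
    B a ⊆ Up C a := fun b hb => mem_Up.2 fun h' => h.comp a b hb h'

theorem Mt_mono {D : OGraph V} {B U : V → Finset V} (h : ∀ a, B a ⊆ U a) (z : V) :
    Mt D B z ⊆ Mt D U z := fun _ hx => mem_Mt.2 fun a ha => h a (mem_Mt.1 hx a ha)

/-- The intersections of the optimal rows are optimal. -/
theorem OptPair.meet {D : OGraph V} {B C : V → Finset V} (h : OptPair D B C) (z : V)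
    (Y : Finset V) (hY : Mt D B z ⊆ Y) (hY' : Y ⊆ Mt D (Up C) z) :
    bd D (Mt D B z) ≤ bd D Y := by
  classical
  have key : ∀ S : Finset V, (∀ a ∈ S, Rl D a z) →
      bd D (Y.filter fun x => ∀ a ∈ S, x ∈ B a) ≤ bd D Y := by
    intro S
    induction S using Finset.induction_on with
    | empty =>
      intro _
      simp
    | insert a S ha ih =>
      intro hS
      have h1 := ih fun a ha => hS a (Finset.mem_insert_of_mem ha)
      set Z := Y.filter fun x => ∀ a ∈ S, x ∈ B a with hZ
      have haz : Rl D a z := hS a (Finset.mem_insert_self _ _)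
      have h2 : (Y.filter fun x => ∀ a' ∈ insert a S, x ∈ B a') = Z ∩ B a := by
        ext x
        simp only [hZ, Finset.mem_filter, Finset.mem_inter, Finset.mem_insert, forall_eq_or_imp]
        tauto
      have h3 := bd_submod D Z (B a)
      have h4 : bd D (B a) ≤ bd D (Z ∪ B a) := by
        refine h.row a _ Finset.subset_union_right fun b hb hab => ?_
        rcases Finset.mem_union.1 hb with hb | hb
        · exact mem_Up.1 (mem_Mt.1 (hY' (Finset.mem_filter.1 hb).1) a haz) hab
        · exact h.comp a b hb hab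
      rw [h2]
      omega
  have h1 := key (Finset.univ.filter fun a => Rl D a z) fun a ha => (Finset.mem_filter.1 ha).2
  have h2 : (Y.filter fun x => ∀ a ∈ Finset.univ.filter fun a => Rl D a z, x ∈ B a) =
      Mt D B z := by
    ext x
    rw [Finset.mem_filter, mem_Mt]
    constructor
    · rintro ⟨_, h3⟩ a ha
      exact h3 a (Finset.mem_filter.2 ⟨Finset.mem_univ a, ha⟩)
    · intro h3
      exact ⟨hY (mem_Mt.2 h3), fun a ha => h3 a (Finset.mem_filter.1 ha).2⟩
  rw [h2] at h1
  exact h1

/-- The column inequality. -/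
theorem OptPair.col {D : OGraph V} {B C : V → Finset V} (h : OptPair D B C) (b : V)
    (S T : Finset V) (hS : ∀ a ∈ S, b ∉ B a ∧ b ∈ Up C a)
    (hT : ∀ a ∈ S, ∀ z, Rl D a z → b ∈ Mt D (Up C) z → z ∈ T) : S.card ≤ T.card := by
  have h1 := h.symm.row b (C b ∪ S) Finset.subset_union_left (by
    intro a ha hba
    rcases Finset.mem_union.1 ha with ha | ha
    · exact (h.comp a b hba ha).symm
    · exact absurd hba (hS a ha).1)
  have h2 := bd_add D (C b ∪ S)
  have h3 := bd_add D (C b)
  have hdis : Disjoint (C b) S := by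
    rw [Finset.disjoint_left]
    intro a ha haS
    have h4 := mem_Up.1 (hS a haS).2 ha
    subst h4
    exact (hS a haS).1 (h.hB _ _ (Rl.refl D a))
  rw [Finset.card_union_of_disjoint hdis] at h2
  have h4 : cl D (C b ∪ S) ⊆ cl D (C b) ∪ T := by
    intro z hz
    by_cases hzC : z ∈ cl D (C b)
    · exact Finset.mem_union_left _ hzC
    · obtain ⟨a, ha, haz⟩ := mem_cl'.1 hz
      rcases Finset.mem_union.1 ha with ha | ha
      · exact absurd (mem_cl'.2 ⟨a, ha, haz⟩) hzC
      · refine Finset.mem_union_right _ (hT a ha z haz (mem_Mt.2 fun s hs => mem_Up.2 ?_))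
        intro hsC
        exact absurd (mem_cl'.2 ⟨s, hsC, hs⟩) hzC
  have h5 := (Finset.card_le_card h4).trans (Finset.card_union_le _ _)
  omega

/-- One column. -/
theorem OptPair.step {D : OGraph V} {B C : V → Finset V} (h : OptPair D B C) (W : Finset V)
    (b : V) :
    ∑ a, mn D (B a) (Up C a) (insert b W) + ∑ z, mn D (Mt D B z) (Mt D (Up C) z) W ≤
      ∑ z, mn D (Mt D B z) (Mt D (Up C) z) (insert b W) + ∑ a, mn D (B a) (Up C a) W := by
  classical
  have hBU := h.sub_Up
  have hM := Mt_mono (D := D) hBU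
  have hW : W ⊆ insert b W := Finset.subset_insert b W
  have h1 : ∀ a, mn D (B a) (Up C a) W ≤ mn D (B a) (Up C a) (insert b W) :=
    fun a => mn_mono D (hBU a) hW
  have h2 : ∀ z, mn D (Mt D B z) (Mt D (Up C) z) W ≤
      mn D (Mt D B z) (Mt D (Up C) z) (insert b W) := fun z => mn_mono D (hM z) hW
  have h3 : ∑ a, (mn D (B a) (Up C a) (insert b W) - mn D (B a) (Up C a) W) ≤
      ∑ z, (mn D (Mt D B z) (Mt D (Up C) z) (insert b W) -
        mn D (Mt D B z) (Mt D (Up C) z) W) := by
    refine sum_le_of_levels _ _ fun t => ?_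
    refine h.col b _ _ (fun a ha => ?_) fun a ha z haz hbz => ?_
    · rw [Finset.mem_filter] at ha
      constructor
      · intro hb
        have := mn_insert D (W := W) (hBU a) (b := b) fun _ => hb
        omega
      · by_contra hb
        have := mn_insert D (W := W) (hBU a) (b := b) fun h' => absurd h' hb
        omega
    · rw [Finset.mem_filter] at ha ⊢
      have h4 := mn_incr D (W := W) (hM z) (hBU a) (Mt_sub (B := B) haz)
        (Mt_sub (B := Up C) haz) hbz
      exact ⟨Finset.mem_univ z, by omega⟩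
  have h4 : ∑ a, (mn D (B a) (Up C a) (insert b W) - mn D (B a) (Up C a) W) +
      ∑ a, mn D (B a) (Up C a) W = ∑ a, mn D (B a) (Up C a) (insert b W) := by
    rw [← Finset.sum_add_distrib]
    exact Finset.sum_congr rfl fun a _ => Nat.sub_add_cancel (h1 a)
  have h5 : ∑ z, (mn D (Mt D B z) (Mt D (Up C) z) (insert b W) -
        mn D (Mt D B z) (Mt D (Up C) z) W) +
      ∑ z, mn D (Mt D B z) (Mt D (Up C) z) W =
      ∑ z, mn D (Mt D B z) (Mt D (Up C) z) (insert b W) := by
    rw [← Finset.sum_add_distrib]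
    exact Finset.sum_congr rfl fun a _ => Nat.sub_add_cancel (h2 a)
  omega

/-- The gap inequality. -/
theorem OptPair.gap {D : OGraph V} {B C : V → Finset V} (h : OptPair D B C) :
    ∑ a, bd D (Up C a) + ∑ z, bd D (Mt D B z) ≤
      ∑ z, bd D (Mt D (Up C) z) + ∑ a, bd D (B a) := by
  classical
  have hBU := h.sub_Up
  have hM := Mt_mono (D := D) hBU
  have key : ∀ W : Finset V,
      ∑ a, mn D (B a) (Up C a) W + ∑ z, mn D (Mt D B z) (Mt D (Up C) z) ∅ ≤
        ∑ z, mn D (Mt D B z) (Mt D (Up C) z) W + ∑ a, mn D (B a) (Up C a) ∅ := by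
    intro W
    induction W using Finset.induction_on with
    | empty => omega
    | insert b W _ ih =>
      have := h.step W b
      omega
  have h1 := key Finset.univ
  have h2 : ∑ a, mn D (B a) (Up C a) Finset.univ = ∑ a, bd D (Up C a) :=
    Finset.sum_congr rfl fun a _ => mn_univ D (hBU a)
  have h3 : ∑ z, mn D (Mt D B z) (Mt D (Up C) z) Finset.univ = ∑ z, bd D (Mt D (Up C) z) :=
    Finset.sum_congr rfl fun z _ => mn_univ D (hM z)
  have h4 : ∑ a, mn D (B a) (Up C a) ∅ ≤ ∑ a, bd D (B a) :=
    Finset.sum_le_sum fun a _ => mn_le ⟨Finset.Subset.refl _, by simp, hBU a⟩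
  have h5 : ∑ z, bd D (Mt D B z) ≤ ∑ z, mn D (Mt D B z) (Mt D (Up C) z) ∅ := by
    refine Finset.sum_le_sum fun z _ => ?_
    obtain ⟨Y, ⟨h6, _, h8⟩, h9⟩ := mn_spec D ∅ (hM z)
    rw [← h9]
    exact h.meet z Y h6 h8
  omega

end Vale.Agent.P038.H224
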