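import Vale.Agent.P038.H71.Plan

/-!
# P038 (H224): boundaries of sets, the minimum over an interval, one column
-/

namespace Vale.Agent.P038.H224

open Finset Vale.Agent.P038.H139

universe u

variable {V : Type u} [Fintype V] [DecidableEq V]

/-- `a = b` or there is an arc from `a` to `b`. -/
def Rl (D : OGraph V) (a b : V) : Prop := a = b ∨ D.arc a b

omit [Fintype V] [DecidableEq V] in
theorem Rl.refl (D : OGraph V) (a : V) : Rl D a a := Or.inl rfl

omit [Fintype V] [DecidableEq V] in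
theorem Rl.anti {D : OGraph V} {a b : V} (h : Rl D a b) (h' : Rl D b a) : a = b := by
  rcases h with h | h
  · exact h
  · rcases h' with h' | h'
    · exact h'.symm
    · exact absurd h' (D.asymm _ _ h)

omit [DecidableEq V] in
theorem mem_cl' {D : OGraph V} {S : Finset V} {z : V} : z ∈ cl D S ↔ ∃ y ∈ S, Rl D y z := by
  rw [mem_cl]
  constructor
  · rintro (h | ⟨y, hy, hyz⟩)
    · exact ⟨z, h, Or.inl rfl⟩
    · exact ⟨y, hy, Or.inr hyz⟩
  · rintro ⟨y, hy, rfl | hyz⟩
    · exact Or.inl hy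
    · exact Or.inr ⟨y, hy, hyz⟩

omit [DecidableEq V] in
theorem subset_cl (D : OGraph V) (S : Finset V) : S ⊆ cl D S := fun z hz =>
  mem_cl.2 (Or.inl hz)

omit [DecidableEq V] in
theorem cl_mono {D : OGraph V} {S T : Finset V} (h : S ⊆ T) : cl D S ⊆ cl D T := by
  intro z hz
  rw [mem_cl'] at hz ⊢
  obtain ⟨y, hy, hyz⟩ := hz
  exact ⟨y, h hy, hyz⟩

/-- The size of the boundary `N[S] \ S`. -/
noncomputable def bd (D : OGraph V) (S : Finset V) : ℕ := (cl D S \ S).card

theorem bd_add (D : OGraph V) (S : Finset V) : bd D S + S.card = (cl D S).card := by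
  unfold bd
  exact Finset.card_sdiff_add_card_eq_card (subset_cl D S)

theorem bd_submod (D : OGraph V) (S T : Finset V) :
    bd D (S ∪ T) + bd D (S ∩ T) ≤ bd D S + bd D T := by
  have h1 : cl D (S ∪ T) = cl D S ∪ cl D T := by
    ext z
    simp only [Finset.mem_union, mem_cl']
    constructor
    · rintro ⟨y, hy | hy, hyz⟩
      · exact Or.inl ⟨y, hy, hyz⟩
      · exact Or.inr ⟨y, hy, hyz⟩
    · rintro (⟨y, hy, hyz⟩ | ⟨y, hy, hyz⟩)
      · exact ⟨y, Or.inl hy, hyz⟩
      · exact ⟨y, Or.inr hy, hyz⟩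
  have h2 : cl D (S ∩ T) ⊆ cl D S ∩ cl D T :=
    Finset.subset_inter (cl_mono Finset.inter_subset_left) (cl_mono Finset.inter_subset_right)
  have h3 := Finset.card_le_card h2
  have h4 := Finset.card_union_add_card_inter S T
  have h5 := Finset.card_union_add_card_inter (cl D S) (cl D T)
  have h6 := bd_add D S
  have h7 := bd_add D T
  have h8 := bd_add D (S ∪ T)
  have h9 := bd_add D (S ∩ T)
  rw [h1] at h8
  omega

/-- Admissible sets. -/
def Adm (P Q W Y : Finset V) : Prop := P ⊆ Y ∧ W ∩ Q ⊆ Y ∧ Y ⊆ Q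

/-- The minimal boundary of a set `Y` with `P ∪ (W ∩ Q) ⊆ Y ⊆ Q`. -/
noncomputable def mn (D : OGraph V) (P Q W : Finset V) : ℕ :=
  sInf {n | ∃ Y, Adm P Q W Y ∧ bd D Y = n}

theorem mn_le {D : OGraph V} {P Q W Y : Finset V} (h : Adm P Q W Y) : mn D P Q W ≤ bd D Y :=
  Nat.sInf_le ⟨Y, h, rfl⟩

theorem mn_spec (D : OGraph V) {P Q : Finset V} (W : Finset V) (h : P ⊆ Q) :
    ∃ Y, Adm P Q W Y ∧ bd D Y = mn D P Q W :=
  Nat.sInf_mem (s := {n | ∃ Y, Adm P Q W Y ∧ bd D Y = n})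
    ⟨_, Q, ⟨h, Finset.inter_subset_right, Finset.Subset.refl _⟩, rfl⟩

theorem mn_mono (D : OGraph V) {P Q W W' : Finset V} (h : P ⊆ Q) (hW : W ⊆ W') :
    mn D P Q W ≤ mn D P Q W' := by
  obtain ⟨Y, ⟨h1, h2, h3⟩, h4⟩ := mn_spec D W' h
  rw [← h4]
  exact mn_le ⟨h1, (Finset.inter_subset_inter_right hW).trans h2, h3⟩

theorem mn_univ (D : OGraph V) {P Q : Finset V} (h : P ⊆ Q) :
    mn D P Q Finset.univ = bd D Q := by
  obtain ⟨Y, ⟨_, h2, h3⟩, h4⟩ := mn_spec D Finset.univ h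
  rw [Finset.univ_inter] at h2
  rw [← h4, Finset.Subset.antisymm h3 h2]

theorem mn_insert (D : OGraph V) {P Q W : Finset V} (h : P ⊆ Q) {b : V} (hb : b ∈ Q → b ∈ P) :
    mn D P Q (insert b W) ≤ mn D P Q W := by
  obtain ⟨Y, ⟨h1, h2, h3⟩, h4⟩ := mn_spec D W h
  rw [← h4]
  refine mn_le ⟨h1, ?_, h3⟩
  intro x hx
  obtain ⟨hx1, hx2⟩ := Finset.mem_inter.1 hx
  rcases Finset.mem_insert.1 hx1 with rfl | hx1
  · exact h1 (hb hx2)
  · exact h2 (Finset.mem_inter.2 ⟨hx1, hx2⟩)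

/-- The increments are larger for the smaller interval. -/
theorem mn_incr (D : OGraph V) {P Q P' Q' W : Finset V} (hPQ : P ⊆ Q) (hPQ' : P' ⊆ Q')
    (hP : P ⊆ P') (hQ : Q ⊆ Q') {b : V} (hb : b ∈ Q) :
    mn D P' Q' (insert b W) + mn D P Q W ≤ mn D P Q (insert b W) + mn D P' Q' W := by
  obtain ⟨Y, ⟨h1, h2, h3⟩, h4⟩ := mn_spec D (insert b W) hPQ
  obtain ⟨Y', ⟨h1', h2', h3'⟩, h4'⟩ := mn_spec D W hPQ'
  have h5 := bd_submod D Y Y'
  have h6 : mn D P' Q' (insert b W) ≤ bd D (Y ∪ Y') := by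
    refine mn_le ⟨h1'.trans Finset.subset_union_right, ?_, Finset.union_subset (h3.trans hQ) h3'⟩
    intro x hx
    obtain ⟨hx1, hx2⟩ := Finset.mem_inter.1 hx
    rcases Finset.mem_insert.1 hx1 with rfl | hx1
    · exact Finset.mem_union_left _ (h2 (Finset.mem_inter.2 ⟨Finset.mem_insert_self _ _, hb⟩))
    · exact Finset.mem_union_right _ (h2' (Finset.mem_inter.2 ⟨hx1, hx2⟩))
  have h7 : mn D P Q W ≤ bd D (Y ∩ Y') := by
    refine mn_le ⟨Finset.subset_inter h1 (hP.trans h1'), ?_, Finset.inter_subset_left.trans h3⟩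
    intro x hx
    obtain ⟨hx1, hx2⟩ := Finset.mem_inter.1 hx
    exact Finset.mem_inter.2
      ⟨h2 (Finset.mem_inter.2 ⟨Finset.mem_insert_of_mem hx1, hx2⟩),
        h2' (Finset.mem_inter.2 ⟨hx1, hQ hx2⟩)⟩
  omega

omit [DecidableEq V] in
/-- Layer cake. -/
theorem sum_le_of_levels (f g : V → ℕ)
    (h : ∀ t, (Finset.univ.filter fun a => t < f a).card ≤
      (Finset.univ.filter fun z => t < g z).card) : ∑ a, f a ≤ ∑ z, g z := by
  obtain ⟨K, hK⟩ : ∃ K, ∀ a, f a ≤ K ∧ g a ≤ K := by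
    refine ⟨∑ a, f a + ∑ a, g a, fun a => ⟨?_, ?_⟩⟩
    · have := Finset.single_le_sum (f := f) (fun i _ => Nat.zero_le _) (Finset.mem_univ a)
      omega
    · have := Finset.single_le_sum (f := g) (fun i _ => Nat.zero_le _) (Finset.mem_univ a)
      omega
  have key : ∀ f : V → ℕ, (∀ a, f a ≤ K) →
      ∑ a, f a = ∑ t ∈ Finset.range K, (Finset.univ.filter fun a => t < f a).card := by
    intro f hf
    have h1 : ∀ a, f a = ∑ t ∈ Finset.range K, if t < f a then 1 else 0 := by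
      intro a
      rw [← Finset.card_filter]
      have : (Finset.range K).filter (fun t => t < f a) = Finset.range (f a) := by
        ext t
        rw [Finset.mem_filter, Finset.mem_range, Finset.mem_range]
        have := hf a
        omega
      rw [this, Finset.card_range]
    calc ∑ a, f a = ∑ a, ∑ t ∈ Finset.range K, (if t < f a then 1 else 0) :=
          Finset.sum_congr rfl fun a _ => h1 a
      _ = ∑ t ∈ Finset.range K, ∑ a, (if t < f a then 1 else 0) := Finset.sum_comm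
      _ = ∑ t ∈ Finset.range K, (Finset.univ.filter fun a => t < f a).card := by
          refine Finset.sum_congr rfl fun t _ => ?_
          rw [Finset.card_filter]
  rw [key f fun a => (hK a).1, key g fun a => (hK a).2]
  exact Finset.sum_le_sum fun t _ => h t

end Vale.Agent.P038.H224
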